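import Vale.Agent.P141.H20.LbcPt

/-!
# P141, line (A), increasing part: the leaf `LBCg` is closed

`fix_pt` : the inequality at one `x0`; `lBCg : H408.LBCg`.
-/

namespace Vale.Agent.P141.H20.Lbc

open Finset Matrix
open Vale.Agent.P075 (Ix)
open Vale.Agent.P141.PL (Pt iv cx ix mem_iv)
open Vale.Agent.P141.PL.H315 (Tri)
open Vale.Agent.P141.PL.H103 Vale.Agent.P141.H103
open Vale.Agent.P141.H48 (US ES BSl)
open Vale.Agent.P141.H305 (ClsM kapM)
open Vale.Agent.P141.H401 (StQ FibU FibP cb)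
open Vale.Agent.P141.H652 (Th Th_psd Th_le_two eb ah eb_psd wt_Th)
open Vale.Agent.P141.H677 (rt KT cP tr_T)
open Vale.Agent.P141.H408
open Vale.Agent.P141.H548 (vN oN chg kinds)
open Vale.Agent.P141.H302 (bN tS Pr)
open Vale.Agent.P141.H808 (cS thS)
open Vale.Agent.P141.H886 (NumF SumQ SumU SumL NumBC pBC)
open Vale.Agent.P141.H912 (wS)
open Vale.Agent.P141.H419.WFamR
open Vale.Agent.P141.H457 (rs PG)
open Vale.Agent.P141.H736 (wE)
open Vale.Agent.P141.H74.CutBC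

noncomputable section

open scoped Classical

set_option linter.unusedVariables false

variable {ι : Type} [Fintype ι] [DecidableEq ι]

/-- **The inequality at one `x0`.** -/
theorem fix_pt {p : H401.Num} {n : ℕ} {ez : ℝ} {F1 F2 F3 : ℕ → Pt → ℝ} {o : ℤ} {K : ℕ} {x : Pt}
    {s r P : ℝ} {U : Tri} {g : ℤ → ℤ → ℝ} {u v : ℤ → ℤ → ι → ℝ} {Q1 Q2 Q3 : ℕ → Pt → Prop}
    (ht : 0 < p.t) (ht1 : p.t ≤ 1) (he0 : 0 < p.e0) (hd1 : p.d ≤ 1)
    (ho : o = 1 ∨ o = -1) (hK : K ≤ n) (hs : 0 < s) (hr : 1 ≤ r)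
    (hcls : H305.Cls K x s r P U g u v) (q2 : BSl n ez p.cP F2 Q2) (hez : 0 < ez)
    (x0 : ℤ) {z : ℝ} (hz : 0 < z) {J : ℕ} (hJ : (2 * cCI p s r) ^ 2 ≤ 4 ^ J * z ^ 2) :
    pBC (p.al U K) o K (cx K x) (beI p r) (p.lam s r) u (cb p s r U K u F3 Q3)
        (C1 p ez U K v F2) (tauI p s r) z x0 ≤
      2160000 * ((J : ℝ) + 1) ^ 3 *
        (√(z ^ 2 * fE ι p n ez F1 F2 F3 o K x s r U g u v Q1 Q2 Q3 x0 *
          (tauI p s r ^ 2 * fB ι p n ez F1 F2 F3 o K x s r U g u v Q1 Q2 Q3 x0)) +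
        tauI p s r ^ 2 * fE ι p n ez F1 F2 F3 o K x s r U g u v Q1 Q2 Q3 x0) := by
  have hl : 0 < p.lam s r := H401.Num.lam_pos (p := p) ht hs hr
  have hy : 0 < p.t / r := div_pos ht (by linarith)
  have hy1 : p.t / r ≤ 1 := (div_le_self ht.le hr).trans ht1
  have hbe : 0 < beI p r := Real.rpow_pos_of_pos hy _
  have hbe1 : beI p r ≤ 1 := Real.rpow_le_one hy.le hy1 (by linarith)
  have hth : 0 < p.th s r := H401.Num.th_pos ht hs hr
  have htau : 0 < tauI p s r := mul_pos two_pos hth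
  have hT := wt_Th (fun x1 => tr_T hl K u x1) (cx K x).2.1 (o - 2) x0
  have hparts := fE_parts (p := p) ht hs hr n ez F1 F2 F3 o K x U g u v Q1 Q2 Q3 x0
  set E := fE ι p n ez F1 F2 F3 o K x s r U g u v Q1 Q2 Q3 x0 with hE
  set EB := fB ι p n ez F1 F2 F3 o K x s r U g u v Q1 Q2 Q3 x0 with hEB
  obtain ⟨nE, eV0, eV1, eO, eB1, eB0, eCr⟩ := hparts
  have nD : 0 ≤ H652.dB p s r U K x u F3 Q3 x0 := H652.dB_nonneg x x0
  have nP : 0 ≤ H652.payS (beI p r) (p.lam s r) o K (cx K x) u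
      (fun k => H652.bS p s r U K u F3 Q3 x0 k) x0 := H652.payS_nonneg hbe hl _
  have eEB : EB = H652.dB p s r U K x u F3 Q3 x0 +
    H652.payS (beI p r) (p.lam s r) o K (cx K x) u
      (fun k => H652.bS p s r U K u F3 Q3 x0 k) x0 := rfl
  have hD : H652.dB p s r U K x u F3 Q3 x0 ≤ EB := by rw [eEB]; linarith
  have hP : H652.payS (beI p r) (p.lam s r) o K (cx K x) u
      (fun k => H652.bS p s r U K u F3 Q3 x0 k) x0 ≤ EB := by rw [eEB]; linarith
  have nEB : 0 ≤ EB := nD.trans hD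
  -- the cut family
  have zero0 : ∀ a, Wn K (cx K x).2.2 (cx K x).1 (beI p r) (tS p s r o K x u x0)
      (cS p ez U K v F2 x0 0) a = 0 := by
    intro a
    unfold H419.WFamR.Wn
    refine sum_eq_zero fun x1 _ => sum_eq_zero fun w _ => ?_
    rw [H548.cS_zero, zero_dotProduct]
  have hmain := H736.fix_BC2 (T := tS p s r o K x u x0)
    (e := fun k x1 m => eb (p.lam s r) K (cx K x).2.1 (KT (p.lam s r) u x1) (o - 2) x0 x1 (k + 1) m)
    (d := fun k x1 m => ah (p.lam s r) K (cx K x).2.1 (KT (p.lam s r) u x1) (o - 2) x0 x1 k m)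
    (be := beI p r) hbe hbe1 (s := z ^ 2) (q := p.th s r ^ 2) (τ := 2) (by positivity)
    (by positivity) (by norm_num) le_rfl hT
    (fun k x1 m => Th_le_two (M := (cx K x).2.1) (tr_T hl K u x1) (o - 2) x0 x1 k m)
    (N := K) (b := fun k => H652.bS p s r U K u F3 Q3 x0 k)
    (c := H170.Win.cut K (cx K x).1 (cx K x).2.2 (cS p ez U K v F2 x0))
    (Pb := H652.PbS p s r U K u F3 Q3 x0) (Pc := Pr (cS p ez U K v F2 x0))
    (H652.PbS_off x0) (cut_row H302.pr_not)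
    (H652.bS_capk hth x0) (H652.bS_capk1 hth x0) (H652.bS_capN hth x0)
    (C := cCI p s r ^ 2)
    (fun k a n' m hka ha => H74.CapBC.cut_capX ht ht1 hd1 he0.le hs hr hez hK hcls q2 x0
      (by omega) (by omega) (by omega) n' m)
    (fun k a n' m hka ha => H74.CapBC.cut_capX ht ht1 hd1 he0.le hs hr hez hK hcls q2 x0
      (by omega) (by omega) (by omega) n' m)
    (J := J) (by nlinarith [hJ, sq_nonneg (cCI p s r)])
    (R₁ := (cx K x).2.1) (S₁ := (cx K x).1) (T₁ := (cx K x).2.2) (cc := cP o x0)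
    (H677.cP_pl ho x0) (E := E) (EB := EB) nE nEB
    ((H652.bS_hB1 x x0).trans hD) ((H652.bS_hB2 x x0).trans hD)
    ((H652.pay_hB3 hbe hl _).trans hP) ((H652.pay_hB4 hbe _).trans hP)
    ?_ ?_ ?_ ?_ ?_ ?_ ?_ ?_ ?_
  · -- conclusion
    refine (H329.WinBC.pBC_cls ht hs hr ez U o K x u v F2 F3 Q3 htau hz x0).trans ?_
    have e1 := GW_win_cut (be := beI p r) (s := z ^ 2) (T := tS p s r o K x u x0) (N := K)
      (S := (cx K x).1) (R := (cx K x).2.2) (c := cS p ez U K v F2 x0) (cx K x).2.1 (cP o x0)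
      (fun k a n m => H874.CP (H652.bS p s r U K u F3 Q3 x0 k) k a n m)
      (fun k => H874.sk (k + 1) ι)
    refine (le_of_eq e1.symm).trans (le_trans hmain ?_)
    have h1 : p.th s r ^ 2 ≤ tauI p s r ^ 2 := by
      unfold H408.tauI
      nlinarith [sq_nonneg (p.th s r)]
    have h2 : √(z ^ 2 * E * (p.th s r ^ 2 * EB)) ≤ √(z ^ 2 * E * (tauI p s r ^ 2 * EB)) := by
      apply Real.sqrt_le_sqrt
      gcongr
    have h3 : p.th s r ^ 2 * E ≤ tauI p s r ^ 2 * E := mul_le_mul_of_nonneg_right h1 nE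
    have h4 : 18 * (120000 * ((J : ℝ) + 1) ^ 3) = 2160000 * ((J : ℝ) + 1) ^ 3 := by ring
    rw [h4]
    exact mul_le_mul_of_nonneg_left (add_le_add h2 h3) (by positivity)
  · -- hC0
    rw [c1_cut, nmH_cut]
    refine le_trans (le_of_eq ?_) eO
    unfold H419.WFamR.nmH H419.WFamR.c1 H548.oN
    rcases Nat.eq_zero_or_pos K with hK0 | hK0
    · subst hK0
      rfl
    · rw [min_eq_left (show 0 + 1 ≤ K by omega), min_eq_left (Nat.zero_le K)]
      rfl
  · -- hC1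
    rw [c1_cut, nmD_cut, nmD_c1]
    exact (nm_le (p := p) ht hs hr 1 0 n ez F1 F2 F3 o K x U g u v Q1 Q2 Q3 x0).1.trans eV1
  · -- hC2
    rw [c1_cut, nmE_cut, nmE_c1]
    exact (nm_le (p := p) ht hs hr 1 0 n ez F1 F2 F3 o K x U g u v Q1 Q2 Q3 x0).2.trans eV1
  · -- hC3
    refine le_trans (le_of_eq ?_) eCr
    unfold H989.CrB.fCRB
    refine sum_congr rfl fun k hk => sum_congr rfl fun x1 hx => sum_congr rfl fun w hw => ?_
    have hk1 : k + 1 ≤ K := (mem_Ico.1 hk).2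
    rw [wE_cut hk1 hx hw]
    rfl
  · -- hC4
    refine le_trans (le_of_eq ?_) ((H302.Wn_bN (p := p) ht hs hr (fun k w m => H302.pr_ch k w m) n
      F1 F3 g Q1 Q2 Q3).trans eB0)
    refine sum_congr rfl fun k hk => ?_
    have hk1 : k + 1 ≤ K := (mem_Ico.1 hk).2
    rw [Wn_rs_cut hk1]
  · -- hW0
    rw [nmH_cut]
    refine le_trans (le_of_eq ?_) nE
    unfold H912.wS H419.WFamR.nmH
    exact sum_eq_zero fun l _ => by rw [zero0, mul_zero]
  · -- hW1
    rw [nmD_cut]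
    refine le_trans (H912.wS_mono fun l => ?_) eV0
    exact (nm_le (p := p) ht hs hr 0 l n ez F1 F2 F3 o K x U g u v Q1 Q2 Q3 x0).1
  · -- hW2
    rw [nmE_cut]
    refine le_trans (H912.wS_mono fun l => ?_) eV0
    exact (nm_le (p := p) ht hs hr 0 l n ez F1 F2 F3 o K x U g u v Q1 Q2 Q3 x0).2
  · -- hW3
    rw [nmB_cut]
    refine le_trans (H912.wS_mono fun l => ?_) eB1
    exact H302.nmB_bN (p := p) ht hs hr (fun k w m => H302.pr_ch k w m) l n F1 F3 g Q1 Q2 Q3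

/-- **THE LEAF `LBCg` IS CLOSED.** -/
theorem numBC : NumBC 2160000 2 := by
  refine H222.Of.numBC_of sumU_fE sumU_fB ?_
  intro ι _ _ p n ez F1 F2 F3 o K x s r U g u v Q1 Q2 Q3 ht ht1 he0 he01 hk3 hk31 hd hd1 hc he hcP
    hL ho hK hs hr hcls q1 q2 q3 hez f1 f2
  have hl : 0 < p.lam s r := H401.Num.lam_pos (p := p) ht hs hr
  have hbe : 0 < beI p r := Real.rpow_pos_of_pos (div_pos ht (by linarith)) _
  have htau : 0 < tauI p s r := mul_pos two_pos (H401.Num.th_pos ht hs hr)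
  refine ⟨fun x0 => (fE_parts (p := p) ht hs hr n ez F1 F2 F3 o K x U g u v Q1 Q2 Q3 x0).1,
    fun x0 => add_nonneg (H652.dB_nonneg x x0) (H652.payS_nonneg hbe hl _), ?_⟩
  intro t' ht' x0 hx0 z J hz1 hz2 hJ
  have hg : 0 < gI p s r := mul_pos (Real.rpow_pos_of_pos (div_pos ht (by linarith)) _) htau
  exact fix_pt ht ht1 he0 hd1 ho hK hs hr hcls.toCls q2 hez x0 (hg.trans_le hz1) hJ

/-- **The leaf.** -/
theorem lBCg : H408.LBCg := H886.lbc_end (by norm_num) (by norm_num) numBC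

end

end Vale.Agent.P141.H20.Lbc
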