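import Vale.Agent.P141.H222.NumOf
import Vale.Agent.P141.H736.FixBD
import Vale.Agent.P141.H74.CutBC
import Vale.Agent.P141.H329.WinS
import Vale.Agent.P141.H652.NumR
import Vale.Agent.P141.H652.NumQ
import Vale.Agent.P141.H548.LagU
import Vale.Agent.P141.H302.BornU
import Vale.Agent.P141.H989.CrB3

/-!
# P141, line (A), increasing part: the leaf `LBCg`

`fE`, `fB` : the numbers of the two slots at one `x0`; `fix_pt` : the inequality at one `x0`;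
`lBCg : H408.LBCg`.
-/

namespace Vale.Agent.P141.H20.Lbc

open Finset Matrix
open Vale.Agent.P075 (Ix)
open Vale.Agent.P141.PL (Pt iv cx ix mem_iv)
open Vale.Agent.P141.PL.H315 (Tri)
open Vale.Agent.P141.PL.H103 Vale.Agent.P141.H103
open Vale.Agent.P141.H48 (US ES BSl)
open Vale.Agent.P141.H305 (ClsM kapM)
open Vale.Agent.P141.H401 (StQ FibU FibP cb)
open Vale.Agent.P141.H652 (Th Th_psd Th_le_two eb ah eb_psd wt_Th)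
open Vale.Agent.P141.H677 (rt KT cP tr_T)
open Vale.Agent.P141.H408
open Vale.Agent.P141.H548 (vN oN chg kinds)
open Vale.Agent.P141.H302 (bN tS Pr)
open Vale.Agent.P141.H808 (cS thS)
open Vale.Agent.P141.H886 (NumF SumQ SumU SumL NumBC pBC)
open Vale.Agent.P141.H912 (wS)
open Vale.Agent.P141.H419.WFamR
open Vale.Agent.P141.H457 (rs PG)
open Vale.Agent.P141.H736 (wE)
open Vale.Agent.P141.H170 (Win.cut)

noncomputable section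

open scoped Classical

set_option linter.unusedVariables false

/-- the number of the second slot -/
def fE : NumF := fun ι _ _ p n ez F1 F2 F3 o K x s r U g u v Q1 Q2 Q3 x0 =>
  (((((∑ l ∈ range (K + 1), (3 / 4 : ℝ) ^ l *
        vN 0 l ι p n ez F1 F2 F3 o K x s r U g u v Q1 Q2 Q3 x0) +
      (∑ l ∈ range (K + 1), (3 / 4 : ℝ) ^ l *
        vN 1 l ι p n ez F1 F2 F3 o K x s r U g u v Q1 Q2 Q3 x0)) +
      (∑ l ∈ range (K + 1), (3 / 4 : ℝ) ^ l *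
        oN l ι p n ez F1 F2 F3 o K x s r U g u v Q1 Q2 Q3 x0)) +
      (∑ l ∈ range (K + 1), (3 / 4 : ℝ) ^ l *
        bN (l + 1) ι p n ez F1 F2 F3 o K x s r U g u v Q1 Q2 Q3 x0)) +
      bN 0 ι p n ez F1 F2 F3 o K x s r U g u v Q1 Q2 Q3 x0) +
    H989.CrB.fCRB H989.CrB.mB ι p n ez F1 F2 F3 o K x s r U g u v Q1 Q2 Q3 x0

/-- the number of the first slot -/
def fB : NumF := fun ι _ _ p n ez F1 F2 F3 o K x s r U g u v Q1 Q2 Q3 x0 =>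
  H652.dB p s r U K x u F3 Q3 x0 +
    H652.payS (beI p r) (p.lam s r) o K (cx K x) u (fun k => H652.bS p s r U K u F3 Q3 x0 k) x0

theorem sumU_fE : SumU 1 fE :=
  (((((H548.sumU_v (j := 0) (Nat.zero_le 1)).add (H548.sumU_v (j := 1) le_rfl)).add
    H548.sumU_o).add H302.sumU_b1).add H302.sumU_b0).add H989.CrB.sumU_mB

theorem sumU_fB : SumU (-1) fB := H652.EBU

section pt

variable {ι : Type} [Fintype ι] [DecidableEq ι]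

theorem chg_nn {p : H401.Num} (ht : 0 < p.t) {s r : ℝ} (hs : 0 < s) (hr : 1 ≤ r) (o : ℤ)
    (K : ℕ) (x : Pt) (u : ℤ → ℤ → ι → ℝ) (x0 : ℤ) (a : ℕ) (x1 z : ℤ) (w : ι → ℝ) :
    (beI p r)⁻¹ * ((ah (p.lam s r) K (cx K x).2.1 (KT (p.lam s r) u x1) (o - 2) x0 x1 a
        (ix (a + 1) z) *ᵥ w) ⬝ᵥ
      (ah (p.lam s r) K (cx K x).2.1 (KT (p.lam s r) u x1) (o - 2) x0 x1 a (ix (a + 1) z) *ᵥ w)) ≤
        chg p s r o K x u x0 a x1 z w ∧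
    (beI p r)⁻¹ * (w ⬝ᵥ eb (p.lam s r) K (cx K x).2.1 (KT (p.lam s r) u x1) (o - 2) x0 x1 (a + 1)
      (ix (a + 1) z) *ᵥ w) ≤ chg p s r o K x u x0 a x1 z w ∧
    0 ≤ chg p s r o K x u x0 a x1 z w := by
  have hl : 0 < p.lam s r := H401.Num.lam_pos (p := p) ht hs hr
  have hbe : 0 < beI p r := Real.rpow_pos_of_pos (div_pos ht (by linarith)) _
  have hbi : 0 ≤ (beI p r)⁻¹ := inv_nonneg.2 hbe.le
  have h1 : 0 ≤ (ah (p.lam s r) K (cx K x).2.1 (KT (p.lam s r) u x1) (o - 2) x0 x1 a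
        (ix (a + 1) z) *ᵥ w) ⬝ᵥ
      (ah (p.lam s r) K (cx K x).2.1 (KT (p.lam s r) u x1) (o - 2) x0 x1 a (ix (a + 1) z) *ᵥ w) :=
    H652.dot_nn _
  have h2 : 0 ≤ w ⬝ᵥ eb (p.lam s r) K (cx K x).2.1 (KT (p.lam s r) u x1) (o - 2) x0 x1 (a + 1)
      (ix (a + 1) z) *ᵥ w := H652.form_nn (eb_psd (tr_T hl K u x1) (o - 2) x0 x1 (a + 1) _) _
  have h3 := mul_nonneg hbi h1
  have h4 := mul_nonneg hbi h2
  unfold H548.chg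
  refine ⟨?_, ?_, ?_⟩ <;> nlinarith

theorem kinds_nn {p : H401.Num} (ht : 0 < p.t) {s r : ℝ} (hs : 0 < s) (hr : 1 ≤ r) (o : ℤ)
    (K : ℕ) (x : Pt) (u : ℤ → ℤ → ι → ℝ) (x0 : ℤ) (a : ℕ) (x1 z : ℤ) (w : ι → ℝ) :
    0 ≤ kinds p s r o K x u x0 a x1 z w := by
  unfold H548.kinds
  exact add_nonneg (add_nonneg (add_nonneg (H548.zm_nonneg ht hs hr o K x u x0 a x1 z w)
    (H548.ze_nonneg ht hs hr o K x u x0 a x1 z w)) (H548.zd_nonneg ht hs hr o K x u x0 a x1 z w))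
    (H548.zq_nonneg ht hs hr o K x u x0 a x1 z w)

end pt

section pt2

variable {ι : Type} [Fintype ι] [DecidableEq ι] {p : H401.Num} {s r ez : ℝ} {o : ℤ} {K : ℕ}
  {x : Pt} {U : Tri} {u v : ℤ → ℤ → ι → ℝ} {F2 : ℕ → Pt → ℝ} {x0 : ℤ}

theorem vN_nn (ht : 0 < p.t) (hs : 0 < s) (hr : 1 ≤ r) (j l n : ℕ) (ez : ℝ)
    (F1 F2 F3 : ℕ → Pt → ℝ) (o : ℤ) (K : ℕ) (x : Pt) (U : Tri) (g : ℤ → ℤ → ℝ)
    (u v : ℤ → ℤ → ι → ℝ) (Q1 Q2 Q3 : ℕ → Pt → Prop) (x0 : ℤ) :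
    0 ≤ vN j l ι p n ez F1 F2 F3 o K x s r U g u v Q1 Q2 Q3 x0 := by
  unfold H548.vN
  exact sum_nonneg fun k _ => sum_nonneg fun x1 _ => sum_nonneg fun z _ =>
    add_nonneg (chg_nn ht hs hr o K x u x0 (k + l) x1 z _).2.2
      (kinds_nn ht hs hr o K x u x0 (k + l) x1 z _)

theorem oN_nn (ht : 0 < p.t) (hs : 0 < s) (hr : 1 ≤ r) (l n : ℕ) (ez : ℝ)
    (F1 F2 F3 : ℕ → Pt → ℝ) (o : ℤ) (K : ℕ) (x : Pt) (U : Tri) (g : ℤ → ℤ → ℝ)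
    (u v : ℤ → ℤ → ι → ℝ) (Q1 Q2 Q3 : ℕ → Pt → Prop) (x0 : ℤ) :
    0 ≤ oN l ι p n ez F1 F2 F3 o K x s r U g u v Q1 Q2 Q3 x0 := by
  unfold H548.oN
  exact sum_nonneg fun x1 _ => sum_nonneg fun z _ => H302.eT_nn ht hs hr _ _ _ _

theorem bN_nn (ht : 0 < p.t) (hs : 0 < s) (hr : 1 ≤ r) (l n : ℕ) (ez : ℝ)
    (F1 F2 F3 : ℕ → Pt → ℝ) (o : ℤ) (K : ℕ) (x : Pt) (U : Tri) (g : ℤ → ℤ → ℝ)
    (u v : ℤ → ℤ → ι → ℝ) (Q1 Q2 Q3 : ℕ → Pt → Prop) (x0 : ℤ) :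
    0 ≤ bN l ι p n ez F1 F2 F3 o K x s r U g u v Q1 Q2 Q3 x0 := by
  unfold H302.bN
  refine sum_nonneg fun k _ => sum_nonneg fun x1 _ => sum_nonneg fun z _ => ?_
  split_ifs
  · exact H302.eT_nn ht hs hr _ _ _ _
  · exact le_rfl

theorem crb_nn (ht : 0 < p.t) (hs : 0 < s) (hr : 1 ≤ r) (n : ℕ) (ez : ℝ)
    (F1 F2 F3 : ℕ → Pt → ℝ) (o : ℤ) (K : ℕ) (x : Pt) (U : Tri) (g : ℤ → ℤ → ℝ)
    (u v : ℤ → ℤ → ι → ℝ) (Q1 Q2 Q3 : ℕ → Pt → Prop) (x0 : ℤ) :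
    0 ≤ H989.CrB.fCRB H989.CrB.mB ι p n ez F1 F2 F3 o K x s r U g u v Q1 Q2 Q3 x0 := by
  unfold H989.CrB.fCRB
  refine sum_nonneg fun k _ => sum_nonneg fun x1 _ => sum_nonneg fun z _ => ?_
  split_ifs
  · exact H302.eT_nn ht hs hr _ _ _ _
  · exact le_rfl

theorem w34_nn {K : ℕ} {f : ℕ → ℝ} (h : ∀ l, 0 ≤ f l) :
    0 ≤ ∑ l ∈ range (K + 1), (3 / 4 : ℝ) ^ l * f l :=
  sum_nonneg fun l _ => mul_nonneg (by positivity) (h l)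

theorem w34_zero {K : ℕ} {f : ℕ → ℝ} (h : ∀ l, 0 ≤ f l) :
    f 0 ≤ ∑ l ∈ range (K + 1), (3 / 4 : ℝ) ^ l * f l := H912.wS_zero_le (N := K) h

/-- all parts of the number are below it -/
theorem fE_parts (ht : 0 < p.t) (hs : 0 < s) (hr : 1 ≤ r) (n : ℕ) (ez : ℝ)
    (F1 F2 F3 : ℕ → Pt → ℝ) (o : ℤ) (K : ℕ) (x : Pt) (U : Tri) (g : ℤ → ℤ → ℝ)
    (u v : ℤ → ℤ → ι → ℝ) (Q1 Q2 Q3 : ℕ → Pt → Prop) (x0 : ℤ) :
    0 ≤ fE ι p n ez F1 F2 F3 o K x s r U g u v Q1 Q2 Q3 x0 ∧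
    (∑ l ∈ range (K + 1), (3 / 4 : ℝ) ^ l * vN 0 l ι p n ez F1 F2 F3 o K x s r U g u v Q1 Q2 Q3 x0)
      ≤ fE ι p n ez F1 F2 F3 o K x s r U g u v Q1 Q2 Q3 x0 ∧
    vN 1 0 ι p n ez F1 F2 F3 o K x s r U g u v Q1 Q2 Q3 x0
      ≤ fE ι p n ez F1 F2 F3 o K x s r U g u v Q1 Q2 Q3 x0 ∧
    oN 0 ι p n ez F1 F2 F3 o K x s r U g u v Q1 Q2 Q3 x0
      ≤ fE ι p n ez F1 F2 F3 o K x s r U g u v Q1 Q2 Q3 x0 ∧
    (∑ l ∈ range (K + 1), (3 / 4 : ℝ) ^ l *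
        bN (l + 1) ι p n ez F1 F2 F3 o K x s r U g u v Q1 Q2 Q3 x0)
      ≤ fE ι p n ez F1 F2 F3 o K x s r U g u v Q1 Q2 Q3 x0 ∧
    bN 0 ι p n ez F1 F2 F3 o K x s r U g u v Q1 Q2 Q3 x0
      ≤ fE ι p n ez F1 F2 F3 o K x s r U g u v Q1 Q2 Q3 x0 ∧
    H989.CrB.fCRB H989.CrB.mB ι p n ez F1 F2 F3 o K x s r U g u v Q1 Q2 Q3 x0
      ≤ fE ι p n ez F1 F2 F3 o K x s r U g u v Q1 Q2 Q3 x0 := by
  have a0 := w34_nn (K := K) fun l => vN_nn (p := p) ht hs hr 0 l n ez F1 F2 F3 o K x U g u v Q1 Q2 Q3 x0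
  have a1 := w34_nn (K := K) fun l => vN_nn (p := p) ht hs hr 1 l n ez F1 F2 F3 o K x U g u v Q1 Q2 Q3 x0
  have a1' := w34_zero (K := K) fun l => vN_nn (p := p) ht hs hr 1 l n ez F1 F2 F3 o K x U g u v Q1 Q2 Q3 x0
  have a2 := w34_nn (K := K) fun l => oN_nn (p := p) ht hs hr l n ez F1 F2 F3 o K x U g u v Q1 Q2 Q3 x0
  have a2' := w34_zero (K := K) fun l => oN_nn (p := p) ht hs hr l n ez F1 F2 F3 o K x U g u v Q1 Q2 Q3 x0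
  have a3 := w34_nn (K := K) fun l => bN_nn (p := p) ht hs hr (l + 1) n ez F1 F2 F3 o K x U g u v Q1 Q2 Q3 x0
  have a4 := bN_nn (p := p) ht hs hr 0 n ez F1 F2 F3 o K x U g u v Q1 Q2 Q3 x0
  have a5 := crb_nn (p := p) ht hs hr n ez F1 F2 F3 o K x U g u v Q1 Q2 Q3 x0
  have e : fE ι p n ez F1 F2 F3 o K x s r U g u v Q1 Q2 Q3 x0 =
    (((((∑ l ∈ range (K + 1), (3 / 4 : ℝ) ^ l *
        vN 0 l ι p n ez F1 F2 F3 o K x s r U g u v Q1 Q2 Q3 x0) +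
      (∑ l ∈ range (K + 1), (3 / 4 : ℝ) ^ l *
        vN 1 l ι p n ez F1 F2 F3 o K x s r U g u v Q1 Q2 Q3 x0)) +
      (∑ l ∈ range (K + 1), (3 / 4 : ℝ) ^ l *
        oN l ι p n ez F1 F2 F3 o K x s r U g u v Q1 Q2 Q3 x0)) +
      (∑ l ∈ range (K + 1), (3 / 4 : ℝ) ^ l *
        bN (l + 1) ι p n ez F1 F2 F3 o K x s r U g u v Q1 Q2 Q3 x0)) +
      bN 0 ι p n ez F1 F2 F3 o K x s r U g u v Q1 Q2 Q3 x0) +
    H989.CrB.fCRB H989.CrB.mB ι p n ez F1 F2 F3 o K x s r U g u v Q1 Q2 Q3 x0 := rfl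
  rw [e]
  refine ⟨?_, ?_, ?_, ?_, ?_, ?_, ?_⟩ <;> linarith

/-- variation and drift of the third slot, letters of `H419` -/
theorem nm_le (ht : 0 < p.t) (hs : 0 < s) (hr : 1 ≤ r) (j l n : ℕ) (ez : ℝ)
    (F1 F2 F3 : ℕ → Pt → ℝ) (o : ℤ) (K : ℕ) (x : Pt) (U : Tri) (g : ℤ → ℤ → ℝ)
    (u v : ℤ → ℤ → ι → ℝ) (Q1 Q2 Q3 : ℕ → Pt → Prop) (x0 : ℤ) :
    (beI p r)⁻¹ * ∑ k ∈ Ico 0 (K - l), Dn K (cx K x).2.2 (cx K x).1
      (fun k x1 m => ah (p.lam s r) K (cx K x).2.1 (KT (p.lam s r) u x1) (o - 2) x0 x1 k m)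
      (cS p ez U K v F2 x0 (k + j)) (k + l) ≤
        vN j l ι p n ez F1 F2 F3 o K x s r U g u v Q1 Q2 Q3 x0 ∧
    (beI p r)⁻¹ * ∑ k ∈ Ico 0 (K - l), En K (cx K x).2.2 (cx K x).1
      (fun k x1 m => eb (p.lam s r) K (cx K x).2.1 (KT (p.lam s r) u x1) (o - 2) x0 x1 (k + 1) m)
      (cS p ez U K v F2 x0 (k + j)) (k + l) ≤
        vN j l ι p n ez F1 F2 F3 o K x s r U g u v Q1 Q2 Q3 x0 := by
  have hI : Ico 0 (K - l) = range (K - l) := by rw [range_eq_Ico]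
  constructor
  · unfold H548.vN H419.WFamR.Dn
    rw [hI, mul_sum]
    refine sum_le_sum fun k _ => ?_
    rw [mul_sum]
    refine sum_le_sum fun x1 _ => ?_
    rw [mul_sum]
    refine sum_le_sum fun z _ => ?_
    have h1 := (chg_nn ht hs hr o K x u x0 (k + l) x1 z (cS p ez U K v F2 x0 (k + j) x1 z)).1
    have h2 := kinds_nn ht hs hr o K x u x0 (k + l) x1 z (cS p ez U K v F2 x0 (k + j) x1 z)
    exact h1.trans (le_add_of_nonneg_right h2)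
  · unfold H548.vN H419.WFamR.En
    rw [hI, mul_sum]
    refine sum_le_sum fun k _ => ?_
    rw [mul_sum]
    refine sum_le_sum fun x1 _ => ?_
    rw [mul_sum]
    refine sum_le_sum fun z _ => ?_
    have h1 := (chg_nn ht hs hr o K x u x0 (k + l) x1 z (cS p ez U K v F2 x0 (k + j) x1 z)).2.1
    have h2 := kinds_nn ht hs hr o K x u x0 (k + l) x1 z (cS p ez U K v F2 x0 (k + j) x1 z)
    exact h1.trans (le_add_of_nonneg_right h2)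

end pt2

end

end Vale.Agent.P141.H20.Lbc
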